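import Vale.Agent.P264R35.Br
import Vale.Agent.P264Z.S.Main
import Vale.Agent.P264Z.F.All
import Vale.Agent.P264Z.A.Shoot
import Vale.Agent.P264Z.E.LinA
import Vale.Agent.P264Z.E.Cont
import Vale.Agent.P264Z.E.Fin

/-! # P264: the maximal smooth Calabi flow can have `T_max < ∞` -/

open scoped Manifold ContDiff
open Vale.Agent.P272.K (Cm)
open Vale.Agent.P264S

theorem Vale.Agent.Results.P264.AMaximalFlow.result :
    ForAll (fun n X _ _ => ∃ _ : RealSmooth (Cm n) X, Charts n X ∧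
      ∀ w : Form (Cm n) X, IsKahler w → Riemannian w (ric w) (scal w) ∧ (∃! s, IsAvg w s) ∧
      (∀ u, Smooth (Cm n) u → IsKahler (pert w u) → ∀ s, IsAvg (pert w u) s ↔ IsAvg w s) ∧
      ∀ s, ∃! T, ∃ φ, IsMaximal w s T φ) ∧
    ¬ ForAll (fun n X _ _ => ∀ (w : Form (Cm n) X) s T φ, IsKahler w → IsAvg w s →
      IsMaximal w s T φ → T = ⊤) ∧
    ∃ (X : Type) (_ : TopologicalSpace X) (_ : T2Space X) (_ : CompactSpace X)
      (_ : ConnectedSpace X) (_ : ChartedSpace (Cm 10) X) (_ : IsManifold 𝓘(ℂ, Cm 10) ω X)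
      (w : Form (Cm 10) X) (s : ℝ) (T : ENNReal) (φ : ℝ → X → ℝ) (u : X → ℝ),
      IsKahler w ∧ IsAvg w s ∧ IsMaximal w s T φ ∧ T ≤ 1 ∧ Smooth (Cm 10) u ∧
      IsKahler (pert w u) ∧ (∀ x, scal (pert w u) x = s) ∧
      IsMaximal (pert w u) s ⊤ fun _ _ => 0 := by
  obtain ⟨σ, hσ⟩ := Vale.Agent.P264Z.exists_shrinker
  exact final (Vale.Agent.P264Z.noGlobal_of Vale.Agent.P264Z.fall Vale.Agent.P264Z.shooting
    (Vale.Agent.P264Z.lin_ineq Vale.Agent.P264Z.fall)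
    (Vale.Agent.P264Z.contCut Vale.Agent.P264Z.fall) hσ)
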